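import Vale.Agent.P022D.NR.Main

/-!
# P022: algebra for the dihedral locus
-/

set_option linter.all false

noncomputable section

namespace Vale.Agent.P022D.Dh

open IsLocalRing Matrix

namespace Alg

variable {B : Type} [CommRing B] [IsLocalRing B]

/-- the lemma of Chevalley -/
theorem chev [IsNoetherianRing B] [IsAdicComplete (maximalIdeal B) B] (I : ℕ → Ideal B)
    (hI : Antitone I) (h0 : ∀ x, (∀ k, x ∈ I k) → x = 0) (n : ℕ) :
    ∃ k, I k ≤ maximalIdeal B ^ n := by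
  have st : ∀ n : ℕ, ∃ k, ∀ k' ≥ k, I k ⊔ maximalIdeal B ^ n ≤ I k' ⊔ maximalIdeal B ^ n := by
    intro n
    haveI : IsArtinianRing (B ⧸ maximalIdeal B ^ n) := by
      rcases Nat.eq_zero_or_pos n with rfl | hn
      · haveI : Subsingleton (B ⧸ maximalIdeal B ^ 0) :=
          Ideal.Quotient.subsingleton_iff.2 (by simp)
        infer_instance
      · exact IsLocalRing.quotient_artinian_of_mem_minimalPrimes_of_isLocalRing _ (by
          rw [← Ideal.radical_minimalPrimes, Ideal.radical_pow _ hn.ne',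
            Ideal.radical_minimalPrimes, Ideal.minimalPrimes_eq_subsingleton_self]
          rfl)
    obtain ⟨k, hk⟩ := IsArtinian.monotone_stabilizes (R := B ⧸ maximalIdeal B ^ n)
      (M := B ⧸ maximalIdeal B ^ n)
      ⟨fun k => OrderDual.toDual ((I k).map (Ideal.Quotient.mk _)),
        fun a b h => Ideal.map_mono (hI h)⟩
    refine ⟨k, fun k' h => ?_⟩
    have e : (I k).map (Ideal.Quotient.mk (maximalIdeal B ^ n)) =
      (I k').map (Ideal.Quotient.mk _) := hk k' h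
    have := congrArg (Ideal.comap (Ideal.Quotient.mk (maximalIdeal B ^ n))) e
    rw [Ideal.comap_map_of_surjective _ Ideal.Quotient.mk_surjective,
      Ideal.comap_map_of_surjective _ Ideal.Quotient.mk_surjective, ← RingHom.ker_eq_comap_bot,
      Ideal.mk_ker] at this
    exact this.le
  choose κ hκ using st
  let J : ℕ → B → Prop := fun j x => ∀ k, x ∈ I k ⊔ maximalIdeal B ^ j
  have hJ : ∀ j x, x ∈ I (κ j) → J j x := fun j x hx k => by
    rcases le_total (κ j) k with h | h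
    · exact hκ j k h (Ideal.mem_sup_left hx)
    · exact Ideal.mem_sup_left (hI h hx)
  have step : ∀ j x, J j x → ∃ y, J (j + 1) y ∧ x - y ∈ maximalIdeal B ^ j := fun j x hx => by
    obtain ⟨a, ha, b, hb, e⟩ := Submodule.mem_sup.1 (hx (κ (j + 1)))
    exact ⟨a, hJ _ _ ha, by rw [← e, add_sub_cancel_left]; exact hb⟩
  choose! nx h1 h2 using step
  refine ⟨κ n, fun x hx => ?_⟩
  let s : ℕ → B := fun i => Nat.rec x (fun i y => nx (n + i) y) i
  have hs : ∀ i, J (n + i) (s i) := fun i => by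
    induction i with
    | zero => exact hJ n x hx
    | succ i ih => exact h1 _ _ ih
  have hd : ∀ a b, s a - s (a + b) ∈ maximalIdeal B ^ (n + a) := fun a b => by
    induction b with
    | zero => simp
    | succ b ih =>
      have := Ideal.add_mem _ ih (Ideal.pow_le_pow_right (show n + a ≤ n + (a + b) by omega)
        (h2 _ _ (hs (a + b))))
      rwa [sub_add_sub_cancel] at this
  have sm : ∀ (i : ℕ) (u v : B), u ≡ v [SMOD (maximalIdeal B ^ i • ⊤ : Submodule B B)] ↔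
      u - v ∈ maximalIdeal B ^ i := fun i u v => by
    rw [SModEq.sub_mem, smul_eq_mul, Ideal.mul_top]
  obtain ⟨L, hL⟩ := IsPrecomplete.prec (IsAdicComplete.toIsPrecomplete (I := maximalIdeal B)
    (M := B)) (f := s) fun {a b} h => by
      obtain ⟨c, rfl⟩ := Nat.exists_eq_add_of_le h
      exact (sm _ _ _).2 (Ideal.pow_le_pow_right (Nat.le_add_left a n) (hd a c))
  have hL0 : L = 0 := h0 L fun k => by
    by_cases ht : I k = ⊤
    · rw [ht]; trivial
    have hk := Ideal.iInf_pow_smul_eq_bot_of_isLocalRing (R := B) (M := B ⧸ I k)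
      (maximalIdeal B) (maximalIdeal.isMaximal B).ne_top
    rw [← Ideal.Quotient.eq_zero_iff_mem, ← Submodule.mem_bot B, ← hk, Submodule.mem_iInf]
    intro i
    obtain ⟨a, ha, b, hb, e⟩ := Submodule.mem_sup.1 (hs i k)
    have h3 : L - a ∈ maximalIdeal B ^ i := by
      have := Ideal.sub_mem _ (Ideal.pow_le_pow_right (Nat.le_add_left i n) hb)
        ((sm _ _ _).1 (hL i))
      rwa [← e, show b - (a + b - L) = L - a by ring] at this
    have h4 : Ideal.Quotient.mk (I k) L = (L - a) • (1 : B ⧸ I k) := by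
      rw [Algebra.smul_def, mul_one, Ideal.Quotient.algebraMap_eq, map_sub,
        Ideal.Quotient.eq_zero_iff_mem.2 ha, sub_zero]
    rw [h4]
    exact Submodule.smul_mem_smul h3 trivial
  have h5 := (sm _ _ _).1 (hL n)
  rw [hL0, sub_zero] at h5
  have h6 := hd 0 n
  rw [zero_add, add_zero] at h6
  have h7 := Ideal.add_mem _ h6 h5
  rwa [sub_add_cancel] at h7

theorem frob [IsNoetherianRing B] [IsAdicComplete (maximalIdeal B) B] [IsDomain B] [CharP B 2]
    (c : ℕ) : ∃ k, ∀ x : B, x ^ 2 ^ c ∈ maximalIdeal B ^ k → x ∈ maximalIdeal B ^ 2 := by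
  haveI : Fact (Nat.Prime 2) := ⟨Nat.prime_two⟩
  obtain ⟨k, hk⟩ := chev (fun k => (maximalIdeal B ^ k).comap (iterateFrobenius B 2 c))
    (fun a b h => Ideal.comap_mono (Ideal.pow_le_pow_right h)) (fun x hx => by
      have h1 : x ^ 2 ^ c ∈ ⨅ k : ℕ, maximalIdeal B ^ k := Submodule.mem_iInf _ |>.2 hx
      rw [Ideal.iInf_pow_eq_bot_of_isLocalRing _ (maximalIdeal.isMaximal B).ne_top] at h1
      exact pow_eq_zero_iff (pow_ne_zero c two_ne_zero) |>.1 h1) 2
  exact ⟨k, fun x hx => hk hx⟩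

theorem odd_pow [CharP B 2] {x : B} (hx : x ∈ maximalIdeal B) {o : ℕ} (ho : Odd o) :
    ∃ u : B, IsUnit u ∧ (1 + x) ^ o - 1 = x * u := by
  refine ⟨∑ i ∈ Finset.range o, (1 + x) ^ i, ?_, ?_⟩
  · rw [← notMem_maximalIdeal, ← residue_eq_zero_iff, map_sum]
    have : ∀ i ∈ Finset.range o, residue B ((1 + x) ^ i) = 1 := fun i _ => by
      rw [map_pow, map_add, (residue_eq_zero_iff x).2 hx, map_one, add_zero, one_pow]
    rw [Finset.sum_congr rfl this, Finset.sum_const, Finset.card_range, nsmul_eq_mul, mul_one,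
      ← map_natCast (residue B), CharP.cast_eq_mod B 2 o, Nat.odd_iff.1 ho, Nat.cast_one, map_one]
    exact one_ne_zero
  · have := geom_sum_mul (1 + x) o
    rw [add_sub_cancel_left] at this
    rw [← this, mul_comm]

theorem pow_sub [CharP B 2] {x : B} (hx : x ∈ maximalIdeal B) {C c o : ℕ} (ho : Odd o)
    (hC : C = 2 ^ c * o) (J : Ideal B) (h : (1 + x) ^ C - 1 ∈ J) : x ^ 2 ^ c ∈ J := by
  haveI : Fact (Nat.Prime 2) := ⟨Nat.prime_two⟩
  obtain ⟨u, hu, e⟩ := odd_pow (Ideal.pow_mem_of_mem _ hx (2 ^ c) (by positivity)) ho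
  rw [hC, pow_mul, add_pow_char_pow, one_pow, e] at h
  exact (J.mul_unit_mem_iff_mem hu).1 h

theorem tors [IsDomain B] [CharP B 2] {y : B} (hy : y - 1 ∈ maximalIdeal B) {n : ℕ} (hn : 0 < n)
    (h : y ^ n = 1) : y = 1 := by
  obtain ⟨c, o, ho, e⟩ := Nat.exists_eq_two_pow_mul_odd hn.ne'
  have := pow_sub hy ho e ⊥ (by rw [add_sub_cancel, h, sub_self]; exact zero_mem _)
  exact sub_eq_zero.1 (pow_eq_zero_iff (pow_ne_zero c two_ne_zero) |>.1 this)

theorem dim_le [IsNoetherianRing B] {a : B} (ha : a ∈ maximalIdeal B)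
    (h : maximalIdeal B ≤ Ideal.span {a} ⊔ maximalIdeal B ^ 2) : ringKrullDim B ≤ 1 := by
  have h1 : maximalIdeal B ≤ Ideal.span {a} :=
    Submodule.le_of_le_smul_of_le_jacobson_bot (IsNoetherian.noetherian _)
      (maximalIdeal_le_jacobson _) (by rwa [smul_eq_mul, ← sq])
  have h2 : maximalIdeal B = Ideal.span {a} :=
    le_antisymm h1 ((Ideal.span_singleton_le_iff_mem _).2 ha)
  rw [← maximalIdeal_height_eq_ringKrullDim]
  have := Ideal.height_le_one_of_isPrincipal_of_mem_minimalPrimes (Ideal.span {a})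
    (maximalIdeal B) (by rw [← h2, Ideal.minimalPrimes_eq_subsingleton_self]; rfl)
  exact_mod_cast this

end Alg

namespace Cy

variable {A : Type} [AddCommGroup A]

theorem cmp {w : A} {a : ℕ} (hw : 2 ^ a • w = 0) (e e' : ℤ) :
    (∃ n : ℕ, e • w = n • e' • w) ∨ ∃ n : ℕ, e' • w = n • e • w := by
  have key : ∀ (i d : ℕ) (o o' : ℤ), Odd o' →
      ∃ n : ℕ, (2 ^ (i + d) * o) • w = n • (2 ^ i * o') • w := by
    intro i d o o' ho
    have hc : IsCoprime o' (2 ^ a) := (Int.isCoprime_two_right.2 ho).pow_right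
    obtain ⟨u, v, huv⟩ := hc
    have hw' : ∀ z : ℤ, (z * 2 ^ a) • w = 0 := fun z => by
      rw [mul_smul, show ((2 : ℤ) ^ a) = ((2 ^ a : ℕ) : ℤ) by push_cast; rfl, natCast_zsmul, hw,
        smul_zero]
    have hp : (0 : ℤ) < 2 ^ a := by positivity
    refine ⟨((2 ^ d * o * u) % 2 ^ a).toNat, ?_⟩
    rw [← natCast_zsmul, Int.toNat_of_nonneg (Int.emod_nonneg _ hp.ne'), smul_smul, Int.emod_def,
      ← sub_eq_zero, ← sub_smul, ← hw' (2 ^ (i + d) * o * v +
        (2 ^ d * o * u / 2 ^ a) * (2 ^ i * o'))]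
    congr 1
    linear_combination (-(2 ^ (i + d) * o)) * huv
  by_cases h : e = 0
  · exact Or.inl ⟨0, by simp [h]⟩
  by_cases h' : e' = 0
  · exact Or.inr ⟨0, by simp [h']⟩
  have dec : ∀ z : ℤ, z ≠ 0 → ∃ (i : ℕ) (o : ℤ), Odd o ∧ z = 2 ^ i * o := fun z hz => by
    obtain ⟨i, o, ho, e⟩ := Nat.exists_eq_two_pow_mul_odd (Int.natAbs_ne_zero.2 hz)
    rcases Int.natAbs_eq z with h | h
    · exact ⟨i, o, ho.natCast, by rw [h, e]; push_cast; ring⟩
    · exact ⟨i, -o, ho.natCast.neg, by rw [h, e]; push_cast; ring⟩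
  obtain ⟨i, o, ho, rfl⟩ := dec e h
  obtain ⟨i', o', ho', rfl⟩ := dec e' h'
  rcases le_total i i' with l | l
  · obtain ⟨d, rfl⟩ := Nat.exists_eq_add_of_le l
    exact Or.inr (key i d o' o ho)
  · obtain ⟨d, rfl⟩ := Nat.exists_eq_add_of_le l
    exact Or.inl (key i' d o o' ho')

end Cy

namespace Mt

variable {G B : Type} [Group G] [CommRing B] [IsLocalRing B]

theorem det_unit (ρ : G →* Matrix (Fin 2) (Fin 2) B) (g : G) : IsUnit (ρ g).det := by
  refine IsUnit.of_mul_eq_one (ρ g⁻¹).det ?_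
  rw [← det_mul, ← map_mul, mul_inv_cancel, map_one, det_one]

/-- the normal form -/
theorem normal [IsAdicComplete (maximalIdeal B) B] (X : Matrix (Fin 2) (Fin 2) B)
    (h1 : X 0 1 ∈ maximalIdeal B) (h3 : IsUnit (X 0 0 - X 1 1)) :
    ∃ (P Q : Matrix (Fin 2) (Fin 2) B) (α β : B), P * Q = 1 ∧ Q * P = 1 ∧
      IsUnit (α - β) ∧ Q * X * P = !![α, 0; 0, β] := by
  have hr : ∀ a, a ∈ maximalIdeal B ↔ residue B a = 0 := fun a => (residue_eq_zero_iff a).symm
  have hu : ∀ a, IsUnit a ↔ residue B a ≠ 0 := fun a => by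
    rw [Ne, ← hr, notMem_maximalIdeal]
  rw [hu, map_sub, sub_ne_zero] at h3
  obtain ⟨α, β, e1, e2, e3, e4⟩ := NR.exists_roots (residue B) residue_surjective
    (maximalIdeal B) hr (t := X 0 0 + X 1 1) (d := X 0 0 * X 1 1 - X 0 1 * X 1 0)
    (a := residue B (X 0 0)) (b := residue B (X 1 1)) (map_add _ _ _).symm
    (by rw [map_sub, map_mul, map_mul, (hr _).1 h1, zero_mul, sub_zero]) h3
  let P : Matrix (Fin 2) (Fin 2) B := !![α - X 1 1, X 0 1; X 1 0, β - X 0 0]
  have hP : IsUnit P.det := by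
    rw [hu, det_fin_two_of, map_sub, map_mul, map_mul, (hr _).1 h1, zero_mul, sub_zero, map_sub,
      map_sub, e3, e4]
    exact mul_ne_zero (sub_ne_zero.2 h3) (sub_ne_zero.2 h3.symm)
  refine ⟨P, P⁻¹, α, β, mul_nonsing_inv P hP, nonsing_inv_mul P hP,
    by rw [hu, map_sub, e3, e4]; exact sub_ne_zero.2 h3, ?_⟩
  have h : X * P = P * !![α, 0; 0, β] := by
    ext i j
    fin_cases i <;> fin_cases j <;>
      simp [P, Matrix.mul_apply, Fin.sum_univ_two]
    · linear_combination (-α) * e1 + e2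
    · ring
    · ring
    · linear_combination (-β) * e1 + e2
  rw [Matrix.mul_assoc, h, ← Matrix.mul_assoc, nonsing_inv_mul P hP, Matrix.one_mul]

/-- a representation with trace zero outside `H` is induced -/
theorem shape [IsAdicComplete (maximalIdeal B) B] (ρ : G →* Matrix (Fin 2) (Fin 2) B)
    {H : Subgroup G} {h0 s0 : G} (hh : h0 ∈ H) (hs : s0 ∉ H)
    (h1 : ρ h0 0 1 ∈ maximalIdeal B) (h3 : IsUnit (ρ h0 0 0 - ρ h0 1 1))
    (hz : ∀ g ∉ H, (ρ g).trace = 0) :
    ∃ ρ' : G →* Matrix (Fin 2) (Fin 2) B, (∀ g, (ρ' g).trace = (ρ g).trace) ∧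
      (∀ g, (ρ' g).det = (ρ g).det) ∧
      (∀ (J : Ideal B) (g : G), (∀ i j, (ρ g - 1) i j ∈ J) → ρ' g 0 0 - 1 ∈ J) ∧
      (∀ g ∈ H, ρ' g 0 1 = 0 ∧ ρ' g 1 0 = 0) ∧ ∀ g ∉ H, ρ' g 0 0 = 0 ∧ ρ' g 1 1 = 0 := by
  obtain ⟨P, Q, α, β, e1, e2, hu, e3⟩ := normal (ρ h0) h1 h3
  let ρ' : G →* Matrix (Fin 2) (Fin 2) B :=
    { toFun := fun g => Q * ρ g * P
      map_one' := by rw [map_one, Matrix.mul_one, e2]
      map_mul' := fun g k => by
        rw [map_mul]
        calc Q * (ρ g * ρ k) * P = Q * ρ g * (P * Q) * ρ k * P := by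
              rw [e1, Matrix.mul_one]; simp only [Matrix.mul_assoc]
          _ = _ := by simp only [Matrix.mul_assoc] }
  have ht : ∀ g, (ρ' g).trace = (ρ g).trace := fun g => by
    show (Q * ρ g * P).trace = _
    rw [trace_mul_comm, ← Matrix.mul_assoc, e1, Matrix.one_mul]
  have e4 : ρ' h0 = !![α, 0; 0, β] := e3
  have nm : ∀ s ∉ H, ∀ h ∈ H, s * h ∉ H := fun s hs h hh e =>
    hs (by simpa using H.mul_mem e (H.inv_mem hh))
  have ad : ∀ g ∉ H, ρ' g 0 0 = 0 ∧ ρ' g 1 1 = 0 := fun g hg => by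
    have a1 := (ht g).trans (hz g hg)
    have a2 := (ht _).trans (hz _ (nm g hg h0 hh))
    rw [map_mul, e4] at a2
    simp only [trace_fin_two, Matrix.mul_apply, Fin.sum_univ_two, of_apply, cons_val', cons_val_zero,
      cons_val_one, cons_val_fin_one, mul_zero, add_zero, zero_add] at a1 a2
    have a3 : ρ' g 0 0 = 0 := hu.mul_right_eq_zero.1 (by linear_combination a2 - β * a1)
    exact ⟨a3, by linear_combination a1 - a3⟩
  refine ⟨ρ', ht, fun g => ?_, fun J g hg => ?_, fun g hg => ?_, ad⟩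
  · show (Q * ρ g * P).det = _
    rw [det_mul, det_mul, mul_right_comm, ← det_mul, e2, det_one, one_mul]
  · have : ρ' g 0 0 - 1 = (Q * (ρ g - 1) * P) 0 0 := by
      rw [Matrix.mul_sub, Matrix.sub_mul, Matrix.mul_one, e2]
      rfl
    rw [this]
    simp only [Matrix.mul_apply]
    exact J.sum_mem fun a _ => J.mul_mem_right _ (J.sum_mem fun b _ => J.mul_mem_left _ (hg b a))
  · have a0 := det_unit ρ' s0
    rw [det_fin_two, (ad s0 hs).1, zero_mul, zero_sub, IsUnit.neg_iff] at a0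
    have a1 := ad _ (nm s0 hs g hg)
    rw [map_mul] at a1
    simp only [Matrix.mul_apply, Fin.sum_univ_two, (ad s0 hs).1, (ad s0 hs).2, zero_mul,
      zero_add, add_zero] at a1
    exact ⟨(isUnit_of_mul_isUnit_right a0).mul_right_eq_zero.1 a1.2,
      (isUnit_of_mul_isUnit_left a0).mul_right_eq_zero.1 a1.1⟩

end Mt

/-- a quotient of a complete local ring is complete -/
theorem complete_quot {S : Type} [CommRing S] [IsLocalRing S] [IsNoetherianRing S]
    [IsAdicComplete (maximalIdeal S) S] (Q : Ideal S) [IsLocalRing (S ⧸ Q)] :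
    IsAdicComplete (maximalIdeal (S ⧸ Q)) (S ⧸ Q) := by
  have h1 : IsPrecomplete (maximalIdeal S) (S ⧸ Q) := by
    rw [← AdicCompletion.of_surjective_iff]
    intro z
    obtain ⟨y, rfl⟩ := AdicCompletion.map_surjective (maximalIdeal S) Q.mkQ_surjective z
    obtain ⟨w, rfl⟩ := AdicCompletion.of_surjective (maximalIdeal S) S y
    exact ⟨Q.mkQ w, (AdicCompletion.map_of ..).symm⟩
  have h2 : IsHausdorff (maximalIdeal S) (S ⧸ Q) := inferInstance
  have h3 : IsAdicComplete (maximalIdeal S) (S ⧸ Q) := { h1, h2 with }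
  rw [← map_maximalIdeal_of_surjective (algebraMap S (S ⧸ Q)) Ideal.Quotient.mk_surjective]
  exact (IsAdicComplete.map_algebraMap_iff _ _).2 h3

end Vale.Agent.P022D.Dh
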