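import Vale.Agent.P027M.S.Gen
import Vale.Agent.P027M.S.Cls
import Vale.Agent.P027M.TW.Dens
import Vale.Agent.P022.H651.FCH
import Vale.Agent.P022.H567.Rec
import Vale.Agent.P022.H565.Fre
import Vale.Agent.P022.H851.POWC
import Vale.Agent.P022.H724.Bas
import Vale.Agent.P022.H20.Gal
import Vale.Agent.P022.H269.Nrm

/-!
# P022: anticyclotomic abelian `2`-quotients of `G_K` are cyclic up to a bounded exponent
-/

set_option linter.all false

noncomputable section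

namespace Vale.Agent.P022D.Dh

open NumberField IsDedekindDomain Vale.Agent.P022 Vale.Agent.P022.C

namespace Cft

section ring

variable {R : Type} [CommRing R]

/-- `x = 1 + T a` modulo `2 T` -/
def Rl (T x a : R) : Prop := ∃ z, x = 1 + T * (a + 2 * z)

theorem Rl.mul {T x y a b : R} (h : Rl (2 * T) x a) (h' : Rl (2 * T) y b) :
    Rl (2 * T) (x * y) (a + b) := by
  obtain ⟨z, rfl⟩ := h
  obtain ⟨z', rfl⟩ := h'
  exact ⟨z + z' + T * (a + 2 * z) * (b + 2 * z'), by ring⟩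

theorem Rl.pow {T x a : R} (h : Rl (2 * T) x a) (n : ℕ) : Rl (2 * T) (x ^ n) (n * a) := by
  induction n with
  | zero => exact ⟨0, by simp⟩
  | succ n ih =>
    rw [pow_succ, Nat.cast_succ, add_mul, one_mul]
    exact ih.mul h

theorem two_pow (M a : R) (r : ℕ) :
    Rl (2 * (2 ^ r * (2 * M))) ((1 + 4 * M * a) ^ 2 ^ r) a := by
  induction r with
  | zero => exact ⟨0, by ring⟩
  | succ r ih =>
    obtain ⟨z, hz⟩ := ih
    refine ⟨z + 2 ^ r * M * (a + 2 * z) ^ 2, ?_⟩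
    rw [pow_succ, pow_mul, hz]
    ring

theorem cong {ω : R} (gen : ∀ x : R, ∃ a b : ℤ, x = (a : R) + (b : R) * ω) (M α : R)
    (h : 4 * M ∣ α - 1) (r : ℕ) :
    ∃ i j : ℕ, 2 ^ r * (4 * M) ∣ α * (1 + 4 * M) ^ i * (1 + 4 * M * ω) ^ j - 1 := by
  induction r with
  | zero => exact ⟨0, 0, by simpa using h⟩
  | succ r ih =>
    obtain ⟨i, j, x, hx⟩ := ih
    obtain ⟨a, b, rfl⟩ := gen x
    have h0 : Rl (2 * (2 ^ r * (2 * M))) (α * (1 + 4 * M) ^ i * (1 + 4 * M * ω) ^ j)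
        ((a : R) + (b : R) * ω) := ⟨0, by linear_combination hx⟩
    have h1 := (two_pow M 1 r).pow a.natAbs
    have h2 := (two_pow M ω r).pow b.natAbs
    obtain ⟨z, hz⟩ := (h0.mul h1).mul h2
    have ev : ∀ a : ℤ, ∃ a' : ℤ, ((a.natAbs : ℕ) : R) = 2 * (a' : R) - a := fun a => by
      rcases Int.natAbs_eq a with e | e
      · refine ⟨a, ?_⟩
        have : ((a.natAbs : ℕ) : R) = a := by rw [← Int.cast_natCast, ← e]
        rw [this]; ring
      · refine ⟨0, ?_⟩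
        have : ((a.natAbs : ℕ) : R) = -a := by
          rw [← Int.cast_natCast, ← Int.cast_neg]
          congr 1
          omega
        rw [this]; simp
    obtain ⟨a', ha⟩ := ev a
    obtain ⟨b', hb⟩ := ev b
    refine ⟨i + 2 ^ r * a.natAbs, j + 2 ^ r * b.natAbs, a' + b' * ω + z, ?_⟩
    rw [pow_add, pow_add, pow_mul, pow_mul]
    rw [ha, hb, mul_one (4 * M)] at hz
    linear_combination hz

end ring

variable {K : Type} [Field K] [NumberField K] {A : Type} [AddCommGroup A]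

/-- the symbol of a principal ideal -/
def sy (f : HeightOneSpectrum (𝓞 K) → A) (α : 𝓞 K) : A := ∑ᶠ v, ordv v (α : K) • f v

theorem supp (f : HeightOneSpectrum (𝓞 K) → A) {α : 𝓞 K} (hα : α ≠ 0) :
    (Function.support fun v => ordv v (α : K) • f v).Finite := by
  refine (H48.finite_supp hα).subset fun v hv h0 => hv ?_
  show ordv v (α : K) • f v = 0
  rw [h0, zero_smul]

theorem sy_mul (f : HeightOneSpectrum (𝓞 K) → A) {α β : 𝓞 K} (hα : α ≠ 0) (hβ : β ≠ 0) :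
    sy f (α * β) = sy f α + sy f β := by
  unfold sy
  rw [← finsum_add_distrib (supp f hα) (supp f hβ)]
  refine finsum_congr fun v => ?_
  rw [← add_smul, ← H269.ordv_mul v (by simpa using hα) (by simpa using hβ)]
  rfl

theorem sy_pow (f : HeightOneSpectrum (𝓞 K) → A) {α : 𝓞 K} (hα : α ≠ 0) (n : ℕ) :
    sy f (α ^ n) = n • sy f α := by
  induction n with
  | zero =>
    rw [pow_zero, zero_smul]
    refine finsum_eq_zero_of_forall_eq_zero fun v => ?_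
    have : ((1 : 𝓞 K) : K) = 1 := rfl
    rw [this, H269.ordv_one, zero_smul]
  | succ n ih => rw [pow_succ, sy_mul f (pow_ne_zero n hα) hα, ih, succ_nsmul]

theorem sy_map {A' : Type} [AddCommGroup A'] (l : A →+ A') (f : HeightOneSpectrum (𝓞 K) → A)
    {α : 𝓞 K} (hα : α ≠ 0) : l (sy f α) = sy (fun v => l (f v)) α := by
  unfold sy
  rw [l.map_finsum (supp f hα)]
  exact finsum_congr fun v => map_zsmul l _ _

theorem gen (v : HeightOneSpectrum (𝓞 K)) : ∃ β : 𝓞 K, β ≠ 0 ∧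
    (∀ w : HeightOneSpectrum (𝓞 K), β ∈ w.asIdeal → w = v) ∧
    ∀ f : HeightOneSpectrum (𝓞 K) → A, sy f β = classNumber K • f v := by
  obtain ⟨x, x0, hx⟩ := P027M.S.Cls.gen_pow v
  obtain ⟨β, rfl⟩ : ∃ β : 𝓞 K, algebraMap (𝓞 K) K β = x := by
    refine HeightOneSpectrum.mem_integers_of_valuation_le_one K x fun w => ?_
    rw [P027M.S.Cls.val_eq w x0, hx, ← WithZero.exp_zero, WithZero.exp_le_exp]
    split_ifs <;> omega
  refine ⟨β, by simpa using x0, fun w hw => ?_, fun f => ?_⟩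
  · by_contra hne
    have h1 := P027M.S.Cls.val_eq w x0
    rw [hx, if_neg hne, neg_zero, WithZero.exp_zero,
      HeightOneSpectrum.valuation_eq_one_iff_notMem] at h1
    exact h1 hw
  · unfold sy
    rw [finsum_eq_single _ v fun w hw => by
      rw [show ordv w (β : K) = 0 from (hx w).trans (if_neg hw), zero_smul],
      show ordv v (β : K) = classNumber K from (hx v).trans (if_pos rfl), natCast_zsmul]

theorem pow_one_mod {N β : 𝓞 K} (hN : N ≠ 0)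
    (h : ∀ w : HeightOneSpectrum (𝓞 K), β ∈ w.asIdeal → N ∉ w.asIdeal) :
    N ∣ β ^ Nat.card (𝓞 K ⧸ Ideal.span {N})ˣ - 1 := by
  have hu : IsUnit (Ideal.Quotient.mk (Ideal.span {N}) β) := by
    by_contra hn
    have h1 : Ideal.span {β} ⊔ Ideal.span {N} ≠ ⊤ := by
      intro h2
      apply hn
      obtain ⟨a, ha, b, hb, e⟩ := Submodule.mem_sup.1 ((Ideal.eq_top_iff_one _).1 h2)
      obtain ⟨c, rfl⟩ := Ideal.mem_span_singleton'.1 ha
      refine IsUnit.of_mul_eq_one (Ideal.Quotient.mk _ c) ?_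
      rw [← map_mul, ← map_one (Ideal.Quotient.mk _), Ideal.Quotient.eq, ← e]
      simpa [mul_comm] using hb
    obtain ⟨w, hw, hle⟩ := Ideal.exists_le_maximal _ h1
    have hNw : N ∈ w := hle (Ideal.mem_sup_right (Ideal.mem_span_singleton_self N))
    exact h ⟨w, hw.isPrime, fun h0 => hN (by rwa [h0, Ideal.mem_bot] at hNw)⟩
      (hle (Ideal.mem_sup_left (Ideal.mem_span_singleton_self β))) hNw
  obtain ⟨u, hu⟩ := hu
  rw [← Ideal.mem_span_singleton, ← Ideal.Quotient.eq, map_pow, ← hu, map_one,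
    ← Units.val_pow_eq_pow_val, pow_card_eq_one', Units.val_one]

theorem sep [Finite A] : ∃ (ι : Type) (_ : Fintype ι) (n : ι → ℕ) (l : ∀ i, A →+ ZMod (n i)),
    (∀ i, 0 < n i) ∧ ∀ x, (∀ i, l i x = 0) → x = 0 := by
  classical
  obtain ⟨ι, _, n, hn, ⟨e⟩⟩ := AddCommGroup.equiv_directSum_zmod_of_finite' A
  refine ⟨ι, inferInstance, n,
    fun i => (DFinsupp.evalAddMonoidHom i).comp e.toAddMonoidHom,
    fun i => lt_trans zero_lt_one (hn i), fun x hx => ?_⟩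
  apply e.injective
  rw [map_zero]
  ext i
  exact hx i

variable {j : K →+* Qb} {Φ : GK j →* Multiplicative A} {M : ℕ}

theorem recip [Finite A] (h2 : ∀ x : A, ∃ a : ℕ, 2 ^ a • x = 0) (hM : Odd M)
    (ho : IsOpen (Φ.ker : Set (GK j)))
    (hu : ∀ p : ℕ, p.Prime → ¬ p ∣ 2 * M → ∀ P : Ideal (𝓞 Qb), P.IsPrime → (p : 𝓞 Qb) ∈ P →
      ∀ g : GK j, InI j P g → Φ g = 1)
    (fr : HeightOneSpectrum (𝓞 K) → GK j) (hf : ∀ v, ∃ P, FrI j v P (fr v)) :
    ∃ r : ℕ, ∀ α : 𝓞 K, α ≠ 0 → ((2 ^ r * M : ℕ) : 𝓞 K) ∣ α - 1 →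
      2 • sy (fun v => (Φ (fr v)).toAdd) α = 0 := by
  obtain ⟨ι, _, n, l, hn, hl⟩ := sep (A := A)
  have key : ∀ i, ∃ r : ℕ, ∀ α : 𝓞 K, α ≠ 0 → ((2 ^ r * M : ℕ) : 𝓞 K) ∣ α - 1 →
      l i (2 • sy (fun v => (Φ (fr v)).toAdd) α) = 0 := by
    intro i
    let θ : GK j →* Multiplicative (ZMod (n i)) := (AddMonoidHom.toMultiplicative (l i)).comp Φ
    have hθ : ∀ g, Φ g = 1 → θ g = 1 := fun g hg => by
      show AddMonoidHom.toMultiplicative (l i) (Φ g) = 1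
      rw [hg, map_one]
    obtain ⟨m, m0, m1, m2, m3⟩ := H651.FCH REC K j (n i) (hn i) θ
      (Subgroup.isOpen_mono (H₁ := Φ.ker) (H₂ := θ.ker) hθ ho)
    obtain ⟨k, m', hm', rfl⟩ := Nat.exists_eq_two_pow_mul_odd m0
    obtain ⟨q, hq, hpow⟩ := H851.POWC K M m' k hM hm' fun p hp hd => by
      by_contra hn
      obtain ⟨P, hP, hpP, g, hg, hne⟩ := m1 p hp (hd.mul_left _)
      refine hne (hθ g (hu p hp (fun h => ?_) P hP hpP g hg))
      rcases (Nat.Prime.dvd_mul hp).1 h with h | h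
      · obtain rfl := (Nat.prime_dvd_prime_iff_eq hp Nat.prime_two).1 h
        exact (Nat.not_even_iff_odd.2 hm') (even_iff_two_dvd.2 hd)
      · exact hn h
    refine ⟨k, fun α hα hd => ?_⟩
    choose cj hcj using H565.fre_conj_exists j
    have h3 := m3 (fun v => l i (Φ (fr v)).toAdd) (fun v P g hv hg => by
        obtain ⟨P', hP'⟩ := hf v
        refine congrArg Multiplicative.toAdd (H565.fre_unique j θ v
          (fun Q hQ hb g' hg' => m2 Q hQ (fun h0 => v.ne_bot ?_) (fun h1 => hv ?_) g' hg')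
          P P' g (fr v) hg hP')
        · rw [← hb, h0]
          exact Ideal.comap_bot_of_injective _ fun a b e => by
            apply RingOfIntegers.ext
            exact j.injective (congrArg (fun z : 𝓞 Qb => (z : Qb)) e)
        · rw [← hb, H651.natCast_mem_below]
          exact h1)
      (fun φ => (θ (cj φ)).toAdd)
      (fun φ g hg => congrArg Multiplicative.toAdd (H565.fre_conj j θ φ g _ hg (hcj φ)))
      ((α ^ q) ^ 2) (pow_ne_zero _ (pow_ne_zero _ hα))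
      ((hpow α hd).trans (sub_one_dvd_pow_sub_one _ 2))
    have h4 : {φ : K →+* ℝ | φ (((α ^ q) ^ 2 : 𝓞 K) : K) < 0} = ∅ := by
      ext φ
      simp only [Set.mem_empty_iff_false, iff_false]
      intro h
      have h' : φ (((α ^ q) ^ 2 : 𝓞 K) : K) < 0 := h
      rw [show (((α ^ q) ^ 2 : 𝓞 K) : K) = ((α ^ q : 𝓞 K) : K) ^ 2 from rfl, map_pow] at h'
      exact absurd h' (not_lt.2 (sq_nonneg _))
    rw [h4, finsum_mem_empty, add_zero] at h3
    have h5 : q • l i (2 • sy (fun v => (Φ (fr v)).toAdd) α) = 0 := by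
      rw [← map_nsmul, smul_comm, ← sy_pow _ hα, ← sy_pow _ (pow_ne_zero q hα),
        sy_map _ _ (pow_ne_zero _ (pow_ne_zero q hα))]
      exact h3
    obtain ⟨a, ha⟩ := h2 (2 • sy (fun v => (Φ (fr v)).toAdd) α)
    have h6 := congrArg (l i) ha
    rw [map_nsmul, map_zero] at h6
    have h7 := Nat.dvd_gcd (addOrderOf_dvd_of_nsmul_eq_zero h5) (addOrderOf_dvd_of_nsmul_eq_zero h6)
    rw [show Nat.gcd q (2 ^ a) = 1 from (Nat.coprime_two_right.2 hq).pow_right a,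
      Nat.dvd_one, AddMonoid.addOrderOf_eq_one_iff] at h7
    exact h7
  choose r hr using key
  refine ⟨Finset.univ.sup r, fun α hα hd => hl _ fun i => hr i α hα (dvd_trans ?_ hd)⟩
  exact Nat.cast_dvd_cast (Nat.mul_dvd_mul_right
    (pow_dvd_pow 2 (Finset.le_sup (f := r) (Finset.mem_univ i))) M)

theorem val_fr (hu : ∀ p : ℕ, p.Prime → ¬ p ∣ 2 * M → ∀ P : Ideal (𝓞 Qb), P.IsPrime →
      (p : 𝓞 Qb) ∈ P → ∀ g : GK j, InI j P g → Φ g = 1)
    {v : HeightOneSpectrum (𝓞 K)} (hv : ((2 * M : ℕ) : 𝓞 K) ∉ v.asIdeal) {P P' : Ideal (𝓞 Qb)}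
    {g g' : GK j} (h : FrI j v P g) (h' : FrI j v P' g') : Φ g = Φ g' := by
  refine H565.fre_unique j Φ v (fun Q hQ hb x hx => ?_) P P' g g' h h'
  obtain ⟨p, hp, hpv⟩ : ∃ p : ℕ, p.Prime ∧ (p : 𝓞 K) ∈ v.asIdeal := by
    have h1 : ∀ n : ℕ, n ≠ 0 → (n : 𝓞 K) ∈ v.asIdeal → ∃ p : ℕ, p.Prime ∧ (p : 𝓞 K) ∈ v.asIdeal := by
      intro n
      induction n using Nat.recOnMul with
      | zero => exact fun h => absurd rfl h
      | one => exact fun _ h => absurd ((Ideal.eq_top_iff_one _).2 (by simpa using h)) v.isPrime.ne_top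
      | prime p hp => exact fun _ h => ⟨p, hp, h⟩
      | mul a b ha hb =>
        intro h0 h
        rw [Nat.cast_mul] at h
        rcases v.isPrime.mem_or_mem h with h | h
        · exact ha (left_ne_zero_of_mul h0) h
        · exact hb (right_ne_zero_of_mul h0) h
    exact h1 _ (fun h0 => v.ne_bot (Ideal.absNorm_eq_zero_iff.1 h0)) (Ideal.absNorm_mem _)
  refine hu p hp (fun hd => hv ?_) Q hQ ?_ x hx
  · exact Ideal.mem_of_dvd _ (Nat.cast_dvd_cast hd) hpv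
  · rw [← H651.natCast_mem_below j, hb]
    exact hpv

theorem rat (hK : Module.finrank ℚ K = 2) {c : GQ} (hc : c ∉ GK j) (τ : K ≃+* K)
    (hτ : ∀ x, c (j x) = j (τ x))
    (hu : ∀ p : ℕ, p.Prime → ¬ p ∣ 2 * M → ∀ P : Ideal (𝓞 Qb), P.IsPrime →
      (p : 𝓞 Qb) ∈ P → ∀ g : GK j, InI j P g → Φ g = 1)
    (ha : ∀ g g' : GK j, (g' : GQ) = c⁻¹ * (g * c) → Φ g' = (Φ g)⁻¹)
    (fr : HeightOneSpectrum (𝓞 K) → GK j) (hf : ∀ v, ∃ P, FrI j v P (fr v)) :
    2 • sy (fun v => (Φ (fr v)).toAdd) (1 + 4 * (M : 𝓞 K)) = 0 := by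
  let e : HeightOneSpectrum (𝓞 K) ≃ HeightOneSpectrum (𝓞 K) :=
    { toFun := P027M.S.Gen.cm τ
      invFun := P027M.S.Gen.cm τ.symm
      left_inv := fun v => by
        ext y
        rw [P027M.S.Gen.mem_cm, P027M.S.Gen.mem_cm]
        exact iff_of_eq (congrArg (· ∈ v.asIdeal) (RingOfIntegers.ext (τ.apply_symm_apply y)))
      right_inv := fun v => by
        ext y
        rw [P027M.S.Gen.mem_cm, P027M.S.Gen.mem_cm]
        exact iff_of_eq (congrArg (· ∈ v.asIdeal) (RingOfIntegers.ext (τ.symm_apply_apply y))) }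
  have hu0 : ((1 + 4 * (M : 𝓞 K) : 𝓞 K) : K) = ((1 + 4 * M : ℕ) : K) := by
    push_cast; rfl
  have h1 : ∀ v, ordv (e v) ((1 + 4 * (M : 𝓞 K) : 𝓞 K) : K) • (Φ (fr (e v))).toAdd =
      -(ordv v ((1 + 4 * (M : 𝓞 K) : 𝓞 K) : K) • (Φ (fr v)).toAdd) := by
    intro v
    have h2 : ordv (e v) ((1 + 4 * (M : 𝓞 K) : 𝓞 K) : K) =
        ordv v ((1 + 4 * (M : 𝓞 K) : 𝓞 K) : K) := by
      unfold ordv
      rw [show e v = P027M.S.Gen.cm τ v from rfl, P027M.S.Gen.val_cm, hu0, map_natCast]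
    rw [h2]
    by_cases hv : (1 + 4 * (M : 𝓞 K)) ∈ v.asIdeal
    swap
    · rw [H269.ordv_eq_zero v hv, zero_smul, zero_smul, neg_zero]
    have h3 : ((2 * M : ℕ) : 𝓞 K) ∉ (e v).asIdeal := by
      intro h
      rw [show e v = P027M.S.Gen.cm τ v from rfl, P027M.S.Gen.mem_cm, map_natCast] at h
      apply v.isPrime.ne_top
      rw [Ideal.eq_top_iff_one]
      have := v.asIdeal.sub_mem hv (v.asIdeal.mul_mem_left 2 h)
      rwa [show (1 + 4 * (M : 𝓞 K)) - 2 * ((2 * M : ℕ) : 𝓞 K) = 1 by push_cast; ring] at this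
    obtain ⟨P, hP⟩ := hf v
    obtain ⟨P', hP'⟩ := hf (e v)
    have h4 : FrI j (e v) (H20.cP c P) ⟨_, H20.conj_mem hK hc (fr v).2⟩ := by
      refine ⟨H20.cP_prime c hP.1, ?_, ?_⟩
      · ext y
        rw [H20.below_cP, show e v = P027M.S.Gen.cm τ v from rfl, P027M.S.Gen.mem_cm, ← hP.2.1]
        exact iff_of_eq (congrArg (· ∈ P) (RingOfIntegers.ext (hτ y)))
      · rw [show Ideal.absNorm (e v).asIdeal = Ideal.absNorm v.asIdeal from
          P027M.S.Gen.norm_cm τ v]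
        exact H20.conj_frob hP.2.2
    rw [val_fr hu h3 hP' h4, ha (fr v) _ rfl, toAdd_inv, smul_neg]
  have h5 : sy (fun v => (Φ (fr v)).toAdd) (1 + 4 * (M : 𝓞 K)) =
      -sy (fun v => (Φ (fr v)).toAdd) (1 + 4 * (M : 𝓞 K)) := by
    unfold sy
    rw [← finsum_neg_distrib, ← finsum_comp_equiv e]
    exact finsum_congr h1
  rw [two_nsmul]
  exact add_eq_zero_iff_eq_neg.2 h5

theorem dens (hK : Module.finrank ℚ K = 2) (h2 : ∀ x : A, ∃ a : ℕ, 2 ^ a • x = 0) (hM : Odd M)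
    (ho : IsOpen (Φ.ker : Set (GK j)))
    (ha : ∀ c ∉ GK j, ∀ g g' : GK j, (g' : GQ) = c⁻¹ * (g * c) → Φ g' = (Φ g)⁻¹) (g : GK j) :
    ∃ (v : HeightOneSpectrum (𝓞 K)) (P : Ideal (𝓞 Qb)) (φ : GK j) (a : ℤ),
      ((2 * M : ℕ) : 𝓞 K) ∉ v.asIdeal ∧ FrI j v P φ ∧ (Φ g).toAdd = a • (Φ φ).toAdd := by
  let U : Subgroup GQ := Φ.ker.map (GK j).subtype
  have mU : ∀ x : GK j, (x : GQ) ∈ U ↔ Φ x = 1 := fun x =>
    Subgroup.mem_map_iff_mem (f := (GK j).subtype) Subtype.val_injective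
  have hU : IsOpen (U : Set GQ) := (H916.isOpen_GK j).isOpenMap_subtype_val _ ho
  haveI hn : U.Normal := ⟨by
    rintro _ ⟨u, hu, rfl⟩ x
    by_cases hx : x ∈ GK j
    · have h0 : Φ (⟨x, hx⟩ * u * (⟨x, hx⟩ : GK j)⁻¹) = 1 := by
        rw [map_mul, map_mul, show Φ u = 1 from hu, mul_one, map_inv, mul_inv_cancel]
      have h1 := (mU _).2 h0
      rw [Subgroup.coe_mul, Subgroup.coe_mul, Subgroup.coe_inv] at h1
      exact h1
    · have hx' : x⁻¹ ∉ GK j := fun h => hx (by simpa using (GK j).inv_mem h)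
      have h0 := ha _ hx' u ⟨_, H20.conj_mem hK hx' u.2⟩ rfl
      rw [show Φ u = 1 from hu, inv_one] at h0
      have h1 := (mU _).2 h0
      rw [show x * (GK j).subtype u * x⁻¹ = x⁻¹⁻¹ * ((u : GQ) * x⁻¹) by
        rw [inv_inv, mul_assoc]; rfl]
      exact h1⟩
  haveI : Finite (GQ ⧸ U) := U.quotient_finite_of_isOpen hU
  obtain ⟨a, ha2⟩ := h2 (Φ g).toAdd
  have h3 : ∀ n : ℕ, QuotientGroup.mk' U g ^ n = 1 ↔ n • (Φ g).toAdd = 0 := fun n => by
    rw [← map_pow, QuotientGroup.mk'_apply, QuotientGroup.eq_one_iff, ← Subgroup.coe_pow, mU,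
      map_pow, ← toAdd_pow]
    rfl
  obtain ⟨φ, ⟨l, hl, hlS, P, hP, hlP, hφ⟩, m, hm, e⟩ := P027M.TW.dens (GQ ⧸ U) (QuotientGroup.mk' U)
    (by
      have : {x : GQ | QuotientGroup.mk' U x = 1} = U := by
        ext x
        exact QuotientGroup.eq_one_iff x
      rw [this]
      exact hU) (2 * M).primeFactors g {2} (by simpa using Nat.prime_two) (by norm_num)
    (fun p hp hd => by
      have := hp.dvd_of_dvd_pow (hd.trans (orderOf_dvd_of_pow_eq_one ((h3 _).2 ha2)))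
      simpa using (Nat.prime_dvd_prime_iff_eq hp Nat.prime_two).1 this)
  rw [← map_pow, QuotientGroup.mk'_apply, QuotientGroup.mk'_apply, QuotientGroup.eq] at e
  have hφK : φ ∈ GK j := by
    obtain ⟨u, -, hu⟩ := e
    have h4 : φ = (g : GQ) ^ m * (u : GQ)⁻¹ := by
      rw [show (u : GQ) = φ⁻¹ * (g : GQ) ^ m from hu]
      group
    rw [h4]
    exact (GK j).mul_mem ((GK j).pow_mem g.2 m) ((GK j).inv_mem u.2)
  have h5 : (Φ ⟨φ, hφK⟩).toAdd = m • (Φ g).toAdd := by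
    have := (mU ((⟨φ, hφK⟩ : GK j)⁻¹ * g ^ m)).1 e
    rw [map_mul, map_inv, inv_mul_eq_one, map_pow] at this
    rw [this, toAdd_pow]
  have hb := H20.below_prime j hP
  have hlb := H20.l_mem_below j hlP
  obtain ⟨x, y, hxy⟩ := Nat.isCoprime_iff_coprime.2 hm
  refine ⟨⟨below j P, hb, H20.ne_bot_of_mem hl hlb⟩, P, ⟨φ, hφK⟩, x, fun h => hlS ?_,
    ⟨hP, rfl, ?_⟩, ?_⟩
  · rw [Nat.mem_primeFactors]
    refine ⟨hl, ?_, mul_ne_zero two_ne_zero hM.pos.ne'⟩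
    have := H20.dvd_of_mem hl hP hlP (d := ((2 * M : ℕ) : ℤ)) (by
      rw [Int.cast_natCast]
      exact (H651.natCast_mem_below j).1 h)
    exact_mod_cast this
  · rw [show Ideal.absNorm (below j P) = l from H20.norm_of_frob_mem hK hl j hP hlP hφ hφK]
    exact hφ
  · have h6 := (h3 _).1 (pow_orderOf_eq_one _)
    rw [h5, ← natCast_zsmul, smul_smul, eq_sub_of_add_eq hxy, sub_smul, one_smul, mul_smul,
      natCast_zsmul, h6, smul_zero, sub_zero]

theorem one_add_ne (x : 𝓞 K) : 1 + 4 * x ≠ 0 := by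
  intro h
  have h1 : IsUnit ((4 : ℤ) : 𝓞 K) :=
    IsUnit.of_mul_eq_one (-x) (by push_cast; linear_combination -h)
  have h2 := h1.map (Algebra.norm ℤ)
  rw [show ((4 : ℤ) : 𝓞 K) = algebraMap ℤ (𝓞 K) 4 from rfl, Algebra.norm_algebraMap,
    isUnit_pow_iff Module.finrank_pos.ne', Int.isUnit_iff] at h2
  omega

end Cft

open Cft in
/-- **anticyclotomic quotients** -/
theorem anti {K : Type} [Field K] [NumberField K] (hK : Module.finrank ℚ K = 2) (j : K →+* Qb)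
    (hτ : ∃ c ∉ GK j, ∃ τ : K ≃+* K, ∀ x, c (j x) = j (τ x)) {M : ℕ} (hM : Odd M) :
    ∃ C : ℕ, 0 < C ∧ ∀ (A : Type) [AddCommGroup A] [Finite A] (Φ : GK j →* Multiplicative A),
      (∀ x : A, ∃ a : ℕ, 2 ^ a • x = 0) → IsOpen (Φ.ker : Set (GK j)) →
      (∀ p : ℕ, p.Prime → ¬ p ∣ 2 * M → ∀ P : Ideal (𝓞 Qb), P.IsPrime → (p : 𝓞 Qb) ∈ P →
        ∀ g : GK j, InI j P g → Φ g = 1) →
      (∀ c ∉ GK j, ∀ g g' : GK j, (g' : GQ) = c⁻¹ * (g * c) → Φ g' = (Φ g)⁻¹) →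
      ∃ w : A, ∀ g, ∃ e : ℤ, C • (Φ g).toAdd = e • w := by
  obtain ⟨c, hc, τ, hτ⟩ := hτ
  obtain ⟨b⟩ := H724.exists_qb hK
  have hN : (4 * (M : 𝓞 K)) ≠ 0 := by
    have : ((4 * M : ℕ) : 𝓞 K) ≠ 0 := Nat.cast_ne_zero.2 (mul_ne_zero four_ne_zero hM.pos.ne')
    simpa using this
  haveI : Finite (𝓞 K ⧸ Ideal.span {4 * (M : 𝓞 K)}) :=
    Ideal.finiteQuotientOfFreeOfNeBot _ (by simpa using hN)
  refine ⟨2 * (Nat.card (𝓞 K ⧸ Ideal.span {4 * (M : 𝓞 K)})ˣ * classNumber K),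
    mul_pos two_pos (mul_pos Nat.card_pos (classNumber_pos K)), ?_⟩
  intro A _ _ Φ h2 ho hu ha
  choose Pf fr hf using H565.fre_exists j
  have hf' : ∀ v, ∃ P, FrI j v P (fr v) := fun v => ⟨_, hf v⟩
  obtain ⟨r, hr⟩ := recip h2 hM ho hu fr hf'
  have hrat := rat hK hc τ hτ hu (ha c hc) fr hf'
  refine ⟨sy (fun v => (Φ (fr v)).toAdd) (1 + 4 * (M : 𝓞 K) * b.ω), fun g => ?_⟩
  obtain ⟨v, P, φ, a, hv, hφ, e⟩ := dens hK h2 hM ho ha g
  obtain ⟨β, β0, β1, β2⟩ := gen (A := A) v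
  have h3 := pow_one_mod hN (β := β) fun w hw h => hv (by
    rw [β1 w hw, show 4 * (M : 𝓞 K) = 2 * (2 * M) by ring] at h
    rcases v.isPrime.mem_or_mem h with h | h
    · push_cast
      exact v.asIdeal.mul_mem_right _ h
    · push_cast
      exact h)
  obtain ⟨i, k, h4⟩ := cong b.gen _ _ h3 r
  have n1 : (1 + 4 * (M : 𝓞 K)) ≠ 0 := one_add_ne _
  have n2 : (1 + 4 * (M : 𝓞 K) * b.ω) ≠ 0 := by
    rw [mul_assoc]; exact one_add_ne _
  have h5 := hr _ (mul_ne_zero (mul_ne_zero (pow_ne_zero _ β0) (pow_ne_zero i n1))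
    (pow_ne_zero k n2)) (dvd_trans ⟨4, by push_cast; ring⟩ h4)
  rw [sy_mul _ (mul_ne_zero (pow_ne_zero _ β0) (pow_ne_zero i n1)) (pow_ne_zero k n2),
    sy_mul _ (pow_ne_zero _ β0) (pow_ne_zero i n1), sy_pow _ β0, sy_pow _ n1, sy_pow _ n2, β2,
    smul_add, smul_add, smul_comm 2 i, hrat, smul_zero, add_zero, add_eq_zero_iff_eq_neg] at h5
  refine ⟨a * -(2 * k), ?_⟩
  rw [e, val_fr hu hv hφ (hf v), smul_comm, mul_smul, mul_smul, h5, mul_smul, neg_smul, mul_smul,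
    natCast_zsmul]
  congr 2
  exact (natCast_zsmul _ 2).symm

end Vale.Agent.P022D.Dh
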