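import Vale.Agent.P022D.Dh.Alg
import Vale.Agent.P022D.Dh.Cft
import Vale.Agent.P022D.Twq.Defs

/-!
# P022: the dihedral locus in characteristic two has dimension at most one
-/

set_option linter.all false

noncomputable section

namespace Vale.Agent.P022D.Dh

open NumberField IsLocalRing Matrix Vale.Agent.P022 Vale.Agent.P022.C Vale.Agent.P022D.Sel
open Vale.Agent.P027M.S (Inert mx)

namespace Nd

theorem quad (H : Subgroup GQ) (ho : IsOpen (H : Set GQ)) (hi : H.index = 2) :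
    ∃ (K : Type) (_ : Field K) (_ : NumberField K) (j : K →+* Qb),
      Module.finrank ℚ K = 2 ∧ GK j = H ∧ ∀ c : GQ, ∃ τ : K ≃+* K, ∀ x, c (j x) = j (τ x) := by
  have htop : GK (algebraMap ℚ Qb) = ⊤ := by
    rw [eq_top_iff]
    intro g _ x
    exact g.commutes x
  have hn : H.Normal := Subgroup.normal_of_index_eq_two hi
  obtain ⟨L, iF, iN, iA, iG, jL, ρ, hD, hG, hker⟩ := H916.exists_fld (algebraMap ℚ Qb) H ho
    (by rw [htop]; exact le_top) (fun g _ u hu => hn.conj_mem u hu g)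
  obtain rfl : iA = DivisionRing.toRatAlgebra := Subsingleton.elim _ _
  refine ⟨L, iF, iN, jL, ?_, hG, fun c =>
    ⟨(ρ ⟨c, by rw [htop]; trivial⟩).toRingEquiv, fun x => hD.act ⟨c, _⟩ x⟩⟩
  have h1 : ρ.ker = H.subgroupOf (GK (algebraMap ℚ Qb)) := by
    ext g
    rw [MonoidHom.mem_ker, hker, Subgroup.mem_subgroupOf]
  have h2 : ρ.ker.index = 2 := by
    rw [h1]
    change H.relIndex _ = 2
    rw [htop, Subgroup.relIndex_top_right, hi]
  rw [Subgroup.index_ker, MonoidHom.range_eq_top.2 hD.surj] at h2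
  have h3 : Nat.card (L ≃ₐ[ℚ] L) = 2 := by
    rw [← h2]
    exact (Nat.card_congr Subgroup.topEquiv.toEquiv).symm
  rw [IsGalois.card_aut_eq_finrank] at h3
  exact h3

variable {F : Type} [Field F] {ρb : GQ →* GL (Fin 2) F} {H : Subgroup GQ}

theorem det_ne (ρb : GQ →* GL (Fin 2) F) (g : GQ) :
    mx ρb g 0 0 * mx ρb g 1 1 - mx ρb g 0 1 * mx ρb g 1 0 ≠ 0 := by
  rw [← det_fin_two]
  exact (ρb g).det_ne_zero

theorem dh_open (h : Dh ρb H) : IsOpen (H : Set GQ) := by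
  refine Subgroup.isOpen_mono (H₁ := ρb.ker) (fun g hg => ?_) h.opn
  by_contra hn
  have h1 := (h.ad g hn).1
  rw [show mx ρb g = 1 from congrArg Units.val (MonoidHom.mem_ker.1 hg)] at h1
  simp at h1

theorem dh_mul (h : Dh ρb H) {g k : GQ} (hg : g ∉ H) (hk : k ∉ H) : g * k ∈ H := by
  by_contra hn
  have h1 := (h.ad _ hn).1
  rw [show mx ρb (g * k) = mx ρb g * mx ρb k from congrArg Units.val (map_mul ρb g k),
    Matrix.mul_apply, Fin.sum_univ_two, (h.ad g hg).1, zero_mul, zero_add] at h1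
  have h2 := det_ne ρb g
  have h3 := det_ne ρb k
  rw [(h.ad g hg).1, zero_mul, zero_sub, neg_ne_zero] at h2
  rw [(h.ad k hk).1, zero_mul, zero_sub, neg_ne_zero] at h3
  exact mul_ne_zero (left_ne_zero_of_mul h2) (right_ne_zero_of_mul h3) h1

theorem dh_index (h : Dh ρb H) : H.index = 2 := by
  obtain ⟨c, hc, -⟩ := h.cyc
  rw [Subgroup.index_eq_two_iff]
  refine ⟨c, fun b => ?_⟩
  by_cases hb : b ∈ H
  · exact Or.inr ⟨hb, fun e => hc (by simpa using H.mul_mem (H.inv_mem hb) e)⟩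
  · exact Or.inl ⟨dh_mul h hb hc, hb⟩

variable {B : Type} [CommRing B] [IsLocalRing B] [IsNoetherianRing B]
  [IsAdicComplete (maximalIdeal B) B] [IsDomain B] [CharP B 2]

/-- the values of an anticyclotomic character lie in a principal ideal modulo `𝔪²` -/
theorem cyc [Finite (B ⧸ maximalIdeal B)] {K : Type} [Field K] [NumberField K]
    (hK : Module.finrank ℚ K = 2) (j : K →+* Qb)
    (hτ : ∃ c ∉ GK j, ∃ τ : K ≃+* K, ∀ x, c (j x) = j (τ x)) {M : ℕ} (hM : Odd M)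
    (y : GK j →* B) (h1 : ∀ g, y g - 1 ∈ maximalIdeal B)
    (ho : ∀ k : ℕ, ∃ U : Subgroup GQ, IsOpen (U : Set GQ) ∧
      ∀ g : GK j, (g : GQ) ∈ U → y g - 1 ∈ maximalIdeal B ^ k)
    (hu : ∀ p : ℕ, p.Prime → ¬ p ∣ 2 * M → ∀ P : Ideal (𝓞 Qb), P.IsPrime → (p : 𝓞 Qb) ∈ P →
      ∀ g : GK j, InI j P g → y g = 1)
    (ha : ∀ c ∉ GK j, ∀ g g' : GK j, (g' : GQ) = c⁻¹ * (g * c) → y g' * y g = 1) :
    ∃ a ∈ maximalIdeal B, ∀ g, y g - 1 ∈ Ideal.span {a} ⊔ maximalIdeal B ^ 2 := by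
  haveI : Fact (Nat.Prime 2) := ⟨Nat.prime_two⟩
  obtain ⟨C, hC, hanti⟩ := anti hK j hτ hM
  obtain ⟨c, o, hodd, e⟩ := Nat.exists_eq_two_pow_mul_odd hC.ne'
  obtain ⟨k, hk⟩ := Alg.frob (B := B) c
  haveI : Finite (B ⧸ maximalIdeal B ^ k) :=
    Ideal.finite_quotient_pow (IsNoetherian.noetherian _) k
  let Φ0 : GK j →* (B ⧸ maximalIdeal B ^ k)ˣ :=
    ((Ideal.Quotient.mk (maximalIdeal B ^ k) : B →* _).comp y).toHomUnits
  have k0 : ∀ g, Φ0 g = 1 ↔ y g - 1 ∈ maximalIdeal B ^ k := fun g => by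
    rw [← Ideal.Quotient.eq, map_one, Units.ext_iff]
    rfl
  let Φ : GK j →* Multiplicative (Additive Φ0.range) :=
    (MulEquiv.multiplicativeAdditive Φ0.range).symm.toMonoidHom.comp Φ0.rangeRestrict
  have k1 : ∀ g, Φ g = 1 ↔ y g - 1 ∈ maximalIdeal B ^ k := fun g => by
    rw [← k0]
    exact Subtype.ext_iff
  have t2 : ∀ g, Φ g ^ 2 ^ k = 1 := fun g => by
    rw [← map_pow, k1, map_pow, ← add_sub_cancel 1 (y g), add_pow_char_pow, one_pow,
      add_sub_cancel_left]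
    exact Ideal.pow_le_pow_right (Nat.lt_two_pow_self).le (Ideal.pow_mem_pow (h1 g) _)
  have sj : ∀ x : Additive Φ0.range, ∃ g, (Φ g).toAdd = x := fun x => by
    obtain ⟨g, hg⟩ := Φ0.rangeRestrict_surjective (Additive.toMul x)
    exact ⟨g, congrArg Additive.ofMul hg⟩
  have t3 : ∀ x : Additive Φ0.range, 2 ^ k • x = 0 := fun x => by
    obtain ⟨g, rfl⟩ := sj x
    rw [← toAdd_pow, t2]
    rfl
  obtain ⟨w, hw⟩ := hanti (Additive Φ0.range) Φ (fun x => ⟨k, t3 x⟩)
    (by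
      obtain ⟨U, hU, h⟩ := ho k
      exact Subgroup.isOpen_mono (H₁ := U.subgroupOf (GK j)) (fun g hg => (k1 g).2 (h g hg))
        (hU.preimage continuous_subtype_val))
    (fun p hp hd P hP hpP g hg => by
      rw [k1, hu p hp hd P hP hpP g hg, sub_self]
      exact zero_mem _)
    (fun s hs g g' e => by
      rw [eq_inv_iff_mul_eq_one, ← map_mul, k1, map_mul, ha s hs g g' e, sub_self]
      exact zero_mem _)
  have one : ∀ (g g' : GK j) (n : ℕ), C • (Φ g).toAdd = n • C • (Φ g').toAdd →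
      y g - y g' ^ n ∈ maximalIdeal B ^ 2 := by
    intro g g' n h
    have h2 : Φ ((g * (g' ^ n)⁻¹) ^ C) = 1 := by
      rw [map_pow, map_mul, map_inv, map_pow, mul_pow, inv_pow, mul_inv_eq_one]
      apply Multiplicative.toAdd.injective
      rw [toAdd_pow, toAdd_pow, toAdd_pow, h, smul_comm]
    rw [k1, map_pow] at h2
    have h3 := hk _ (Alg.pow_sub (h1 (g * (g' ^ n)⁻¹)) hodd e _ (by rwa [add_sub_cancel]))
    have h4 := Ideal.mul_mem_right (y (g' ^ n)) _ h3
    rwa [sub_mul, ← map_mul, inv_mul_cancel_right, one_mul, map_pow] at h4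
  have cmp : ∀ g g' : GK j, (∃ n : ℕ, y g - y g' ^ n ∈ maximalIdeal B ^ 2) ∨
      ∃ n : ℕ, y g' - y g ^ n ∈ maximalIdeal B ^ 2 := fun g g' => by
    obtain ⟨a, h⟩ := hw g
    obtain ⟨a', h'⟩ := hw g'
    rcases Cy.cmp (t3 w) a a' with ⟨n, hn⟩ | ⟨n, hn⟩
    · exact Or.inl ⟨n, one g g' n (by rw [h, h', hn])⟩
    · exact Or.inr ⟨n, one g' g n (by rw [h, h', hn])⟩
  have lin : ∀ (g : GK j) (n : ℕ), y g ^ n - 1 - n * (y g - 1) ∈ maximalIdeal B ^ 2 := by
    intro g n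
    induction n with
    | zero => simp
    | succ n ih =>
      have h5 : (y g ^ n - 1) * (y g - 1) ∈ maximalIdeal B ^ 2 := by
        rw [sq, ← map_pow]
        exact Ideal.mul_mem_mul (h1 _) (h1 g)
      have := Ideal.add_mem _ ih h5
      rwa [show y g ^ n - 1 - n * (y g - 1) + (y g ^ n - 1) * (y g - 1) =
        y g ^ (n + 1) - 1 - ((n + 1 : ℕ) : B) * (y g - 1) by push_cast; ring] at this
  by_cases h0 : ∀ g, y g - 1 ∈ maximalIdeal B ^ 2
  · exact ⟨0, zero_mem _, fun g => Ideal.mem_sup_right (h0 g)⟩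
  push Not at h0
  obtain ⟨g1, hg1⟩ := h0
  refine ⟨y g1 - 1, h1 g1, fun g => ?_⟩
  rcases cmp g g1 with ⟨n, hn⟩ | ⟨n, hn⟩
  · have := Ideal.add_mem (Ideal.span {y g1 - 1} ⊔ maximalIdeal B ^ 2)
      (Ideal.mem_sup_left (Ideal.mul_mem_left _ (n : B) (Ideal.mem_span_singleton_self _)))
      (Ideal.mem_sup_right (Ideal.add_mem _ hn (lin g1 n)))
    rwa [show (n : B) * (y g1 - 1) + (y g - y g1 ^ n + (y g1 ^ n - 1 - n * (y g1 - 1))) =
      y g - 1 by ring] at this
  · have h6 := Ideal.add_mem _ hn (lin g n)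
    rw [show y g1 - y g ^ n + (y g ^ n - 1 - n * (y g - 1)) = y g1 - 1 - n * (y g - 1) by ring,
      CharP.cast_eq_mod B 2 n] at h6
    rcases Nat.mod_two_eq_zero_or_one n with h7 | h7
    · rw [h7, Nat.cast_zero, zero_mul, sub_zero] at h6
      exact absurd h6 hg1
    · rw [h7, Nat.cast_one, one_mul] at h6
      have := Ideal.sub_mem (Ideal.span {y g1 - 1} ⊔ maximalIdeal B ^ 2)
        (Ideal.mem_sup_left (Ideal.mem_span_singleton_self _)) (Ideal.mem_sup_right h6)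
      rwa [sub_sub_cancel] at this

/-- the case of a domain -/
theorem dom [Finite F] [CharP F 2] (lb : B →+* F) (ρ : GQ →* M2 B) (T : Finset ℕ) (hD : Dh ρb H)
    (ker : ∀ z, lb z = 0 ↔ z ∈ maximalIdeal B) (lift : ∀ g, mx ρb g = (ρ g).map lb)
    (cont : ∀ k : ℕ, ∃ U : Subgroup GQ, IsOpen (U : Set GQ) ∧
      ∀ u ∈ U, ∀ i j, (ρ u - 1) i j ∈ maximalIdeal B ^ k)
    (unr : ∀ l : ℕ, l.Prime → l ∉ T → ∀ P : Ideal (𝓞 Qb), P.IsPrime → (l : 𝓞 Qb) ∈ P →
      ∀ u, Inert P u → ρ u = 1)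
    (hdet : ∀ g, ∃ n : ℕ, 0 < n ∧ (ρ g).det ^ n = 1) (hz : ∀ g ∉ H, (ρ g).trace = 0) :
    ∃ a ∈ maximalIdeal B, ∀ g, (ρ g).trace ^ Nat.card F - (ρ g).trace ∈
      Ideal.span {a} ⊔ maximalIdeal B ^ 2 := by
  classical
  haveI : Fact (Nat.Prime 2) := ⟨Nat.prime_two⟩
  letI := Fintype.ofFinite F
  haveI : Finite (B ⧸ maximalIdeal B) := Finite.of_injective
    (Ideal.Quotient.lift (maximalIdeal B) lb fun z hz => (ker z).2 hz)
    ((injective_iff_map_eq_zero _).2 fun z hz => by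
      obtain ⟨z, rfl⟩ := Ideal.Quotient.mk_surjective z
      exact Ideal.Quotient.eq_zero_iff_mem.2 ((ker z).1 hz))
  have un : ∀ z : B, IsUnit z → z ^ (Nat.card F - 1) - 1 ∈ maximalIdeal B := fun z hz => by
    rw [← ker, map_sub, map_pow, map_one, Nat.card_eq_fintype_card,
      FiniteField.pow_card_sub_one_eq_one _ (hz.map lb).ne_zero, sub_self]
  obtain ⟨K, _, _, j, hK, rfl, hτ⟩ := quad H (dh_open hD) (dh_index hD)
  obtain ⟨h0, hh0, hne⟩ := hD.irr
  obtain ⟨s0, hs0, -⟩ := hD.cyc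
  have en : ∀ g a b, mx ρb g a b = lb (ρ g a b) := fun g a b => by rw [lift]; rfl
  obtain ⟨ρ', e1, e2, e3, dg, ad⟩ := Mt.shape ρ hh0 hs0
    (by rw [← ker, ← en]; exact (hD.dg h0 hh0).1)
    (by rw [← notMem_maximalIdeal, ← ker, map_sub, ← en, ← en]; exact sub_ne_zero.2 hne) hz
  let ψ : GK j →* B :=
    { toFun := fun g => ρ' g 0 0
      map_one' := by rw [OneMemClass.coe_one, map_one]; rfl
      map_mul' := fun g k => by
        rw [Subgroup.coe_mul, map_mul, Matrix.mul_apply, Fin.sum_univ_two, (dg g g.2).1, zero_mul,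
          add_zero] }
  have sw : ∀ c ∉ GK j, ∀ g g' : GK j, (g' : GQ) = c⁻¹ * (g * c) → ψ g' = ρ' g 1 1 := by
    intro c hc g g' e
    have a0 := Mt.det_unit ρ' c
    rw [det_fin_two, (ad c hc).1, zero_mul, zero_sub, IsUnit.neg_iff] at a0
    have a1 : ρ' c * ρ' g' = ρ' g * ρ' c := by
      rw [← map_mul, ← map_mul, e, mul_inv_cancel_left]
    have a2 := congrFun (congrFun a1 1) 0
    simp only [Matrix.mul_apply, Fin.sum_univ_two, (ad c hc).1, (ad c hc).2, zero_mul, mul_zero,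
      zero_add, add_zero] at a2
    exact (isUnit_of_mul_isUnit_right a0).mul_left_cancel (a2.trans (mul_comm _ _))
  have uψ : ∀ g, IsUnit (ψ g) := fun g => (Group.isUnit g).map ψ
  obtain ⟨a, ha, h⟩ := cyc hK j ⟨s0, hs0, hτ s0⟩ (M := ∏ p ∈ T.filter Odd, p)
    (Finset.prod_induction _ Odd (fun _ _ => Odd.mul) odd_one
      fun p hp => (Finset.mem_filter.1 hp).2)
    ((powMonoidHom (Nat.card F - 1)).comp ψ) (fun g => un _ (uψ g))
    (fun k => by
      obtain ⟨U, hU, h⟩ := cont k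
      exact ⟨U, hU, fun g hg => Ideal.mem_of_dvd _ (sub_one_dvd_pow_sub_one (ψ g) _)
        (e3 _ g (h g hg))⟩)
    (fun p hp hd P hP hpP g hg => by
      have h1 : ρ g = 1 := unr p hp (fun hT => hd ?_) P hP hpP g hg
      · have h2 : ψ g - 1 ∈ (⊥ : Ideal B) := e3 ⊥ g fun a b => by rw [h1, sub_self]; rfl
        show ψ g ^ _ = 1
        rw [sub_eq_zero.1 h2, one_pow]
      · rcases hp.eq_two_or_odd' with rfl | h3
        · exact dvd_mul_right _ _
        · exact (Finset.dvd_prod_of_mem (fun p => p) (Finset.mem_filter.2 ⟨hT, h3⟩)).mul_left 2)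
    (fun c hc g g' e => by
      obtain ⟨n, hn, h1⟩ := hdet g
      show ψ g' ^ _ * ψ g ^ _ = 1
      have h2 : ψ g' * ψ g = (ρ g).det := by
        rw [sw c hc g g' e, ← e2, det_fin_two, (dg g g.2).1, zero_mul, sub_zero, mul_comm]
        rfl
      rw [← mul_pow, h2]
      exact Alg.tors (un _ (Mt.det_unit ρ g)) hn (by rw [← pow_mul, mul_comm, pow_mul, h1, one_pow]))
  have hq : Nat.card F = Nat.card F - 1 + 1 := (Nat.sub_add_cancel Nat.card_pos).symm
  have h' : ∀ g, ψ g ^ Nat.card F - ψ g ∈ Ideal.span {a} ⊔ maximalIdeal B ^ 2 := fun g => by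
    have := Ideal.mul_mem_right (ψ g) _ (h g)
    rw [hq, pow_succ (ψ g)]
    rwa [sub_mul, one_mul] at this
  refine ⟨a, ha, fun g => ?_⟩
  by_cases hg : g ∈ GK j
  · obtain ⟨f, -, hf⟩ := FiniteField.card F 2
    have := Ideal.add_mem _ (h' ⟨g, hg⟩) (h' ⟨_, H20.conj_mem hK hs0 hg⟩)
    rw [sw s0 hs0 ⟨g, hg⟩ ⟨_, H20.conj_mem hK hs0 hg⟩ rfl] at this
    rw [← e1, trace_fin_two, Nat.card_eq_fintype_card, hf, add_pow_char_pow, ← hf,
      ← Nat.card_eq_fintype_card, add_sub_add_comm]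
    exact this
  · rw [hz g hg, zero_pow Nat.card_pos.ne', sub_self]
    exact zero_mem _

end Nd

/-- **the dihedral locus is small** -/
theorem ndh : Twq.NDH := by
  intro F O R _ _ _ _ _ _ _ _ _ red lb x ρ ρb H T p hD hL hp
  by_contra hz
  push Not at hz
  haveI : Fact (Nat.Prime 2) := ⟨Nat.prime_two⟩
  letI := Fintype.ofFinite F
  haveI := hp.prime
  haveI : Nontrivial (R ⧸ p) := Ideal.Quotient.nontrivial_iff.2 hp.prime.ne_top
  haveI : IsLocalRing (R ⧸ p) := IsLocalRing.of_surjective' _ Ideal.Quotient.mk_surjective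
  haveI := complete_quot p
  have h2 : (2 : R) ∈ p := by
    have := hp.res 2 (by rw [map_ofNat]; exact CharP.cast_eq_zero F 2)
    rwa [map_ofNat] at this
  haveI : CharP (R ⧸ p) 2 := CharTwo.of_one_ne_zero_of_two_eq_zero one_ne_zero (by
    rw [← map_ofNat (Ideal.Quotient.mk p) 2]
    exact Ideal.Quotient.eq_zero_iff_mem.2 h2)
  have hm : (maximalIdeal R).map (Ideal.Quotient.mk p) = maximalIdeal (R ⧸ p) :=
    map_maximalIdeal_of_surjective _ Ideal.Quotient.mk_surjective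
  have hk : ∀ (k : ℕ) (z : R), z ∈ maximalIdeal R ^ k →
      Ideal.Quotient.mk p z ∈ maximalIdeal (R ⧸ p) ^ k := fun k z h => by
    rw [← hm, ← Ideal.map_pow]
    exact Ideal.mem_map_of_mem _ h
  let lb' : R ⧸ p →+* F := Ideal.Quotient.lift p lb fun z h =>
    (hL.ker z).2 (le_maximalIdeal hp.prime.ne_top h)
  let ρ' : GQ →* M2 (R ⧸ p) := ((Ideal.Quotient.mk p).mapMatrix (m := Fin 2)).toMonoidHom.comp ρ
  have tr : ∀ g, (ρ' g).trace = Ideal.Quotient.mk p (ρ g).trace := fun g => by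
    rw [trace_fin_two, trace_fin_two, map_add]; rfl
  obtain ⟨a, ha, h⟩ := Nd.dom lb' ρ' T hD
    (fun z => by
      obtain ⟨z, rfl⟩ := Ideal.Quotient.mk_surjective z
      refine (hL.ker z).trans ⟨fun h => by simpa using hk 1 z (by simpa using h), fun h => ?_⟩
      by_contra hn
      exact (mem_maximalIdeal _).1 h ((notMem_maximalIdeal.1 hn).map _))
    (fun g => by rw [hL.lift]; rfl)
    (fun k => by
      obtain ⟨U, hU, h⟩ := hL.cont k
      refine ⟨U, hU, fun u hu a b => ?_⟩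
      have : ρ' u - 1 = (Ideal.Quotient.mk p).mapMatrix (ρ u - 1) := by
        rw [map_sub, map_one]; rfl
      rw [this]
      exact hk k _ (h u hu a b))
    (fun l hl hT P hP hlP u hu => by
      show (Ideal.Quotient.mk p).mapMatrix (ρ u) = 1
      rw [hL.unr l hl hT P hP hlP u hu, map_one])
    (fun g => by
      obtain ⟨n, hn, h⟩ := hp.det g
      refine ⟨n, hn, ?_⟩
      rw [show (ρ' g).det = Ideal.Quotient.mk p (ρ g).det from (RingHom.map_det _ _).symm,
        ← map_pow, ← map_one (Ideal.Quotient.mk p), Ideal.Quotient.eq]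
      exact h)
    (fun g hg => by rw [tr]; exact Ideal.Quotient.eq_zero_iff_mem.2 (hz g hg))
  obtain ⟨f, -, hf⟩ := FiniteField.card F 2
  rw [Nat.card_eq_fintype_card] at h
  have key : ∀ y ∈ Algebra.adjoin O (Set.range fun g => (ρ g).trace),
      Ideal.Quotient.mk p y ^ Fintype.card F - Ideal.Quotient.mk p y ∈
        Ideal.span {a} ⊔ maximalIdeal (R ⧸ p) ^ 2 := by
    intro y hy
    induction hy using Algebra.adjoin_induction with
    | mem y hy =>
      obtain ⟨g, rfl⟩ := hy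
      rw [← tr]
      exact h g
    | algebraMap c =>
      rw [← map_pow, ← map_sub, ← map_pow, ← map_sub, Ideal.Quotient.eq_zero_iff_mem.2
        (hp.res _ (by rw [map_sub, map_pow, FiniteField.pow_card, sub_self]))]
      exact zero_mem _
    | add y z _ _ a1 a2 =>
      rw [map_add, hf, add_pow_char_pow, ← hf, add_sub_add_comm]
      exact Ideal.add_mem _ a1 a2
    | mul y z _ _ a1 a2 =>
      have := Ideal.add_mem _ (Ideal.mul_mem_left _ (Ideal.Quotient.mk p y ^ Fintype.card F) a2)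
        (Ideal.mul_mem_left _ (Ideal.Quotient.mk p z) a1)
      rw [map_mul, mul_pow]
      rwa [mul_sub, mul_sub, mul_comm (Ideal.Quotient.mk p z), mul_comm (Ideal.Quotient.mk p z),
        sub_add_sub_cancel] at this
  have hd := Alg.dim_le ha fun z hz => by
    obtain ⟨z, rfl⟩ := Ideal.Quotient.mk_surjective z
    obtain ⟨y, hy, e⟩ := hL.gen z
    have b1 := hk 2 _ e
    rw [map_sub] at b1
    have b2 : Ideal.Quotient.mk p y ∈ maximalIdeal (R ⧸ p) := by
      have := Ideal.sub_mem _ hz (Ideal.pow_le_self two_ne_zero b1)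
      rwa [sub_sub_cancel] at this
    have b3 : Ideal.Quotient.mk p y ^ Fintype.card F ∈ maximalIdeal (R ⧸ p) ^ 2 :=
      Ideal.pow_le_pow_right Fintype.one_lt_card (Ideal.pow_mem_pow b2 _)
    have := Ideal.sub_mem _ (Ideal.mem_sup_right (S := Ideal.span {a}) (Ideal.add_mem _ b1 b3))
      (key y hy)
    rwa [show ∀ u v w : R ⧸ p, u - v + w - (w - v) = u from fun u v w => by ring] at this
  exact absurd (hp.dim.trans hd) (by norm_num)

end Vale.Agent.P022D.Dh
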